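import Vale.Agent.Lib.P194.Extreme

/-!
# P194: direct finiteness for factors with an extreme support point (every group, every field)
-/

namespace Vale.Agent.Results.P194.ExtremeSupport

open Vale.Agent.Lib.P194

theorem result (K : Type) [Field K] (G : Type) [Group G] (a b : MonoidAlgebra K G)
    (hab : a * b = 1) :
    ((∃ g, LeftExtreme a.coeff.support g) → b * a = 1) ∧
    ((∃ g, RightExtreme b.coeff.support g) → b * a = 1) ∧
    (∀ φ : G → ℝ, (∀ x y, φ (x * y) = φ x + φ y) →
      ((∃ g ∈ a.coeff.support, ∀ h ∈ a.coeff.support, h ≠ g → φ g < φ h) ∨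
       (∃ g ∈ b.coeff.support, ∀ h ∈ b.coeff.support, h ≠ g → φ g < φ h)) → b * a = 1) := by
  have h1 : (∃ g, LeftExtreme a.coeff.support g) → b * a = 1 := by
    rintro ⟨g, hg⟩
    have h : a * (b * a - 1) = 0 := by
      rw [mul_sub, ← mul_assoc, hab, one_mul, mul_one, sub_self]
    exact sub_eq_zero.mp (left_regular a _ g hg h)
  have h2 : (∃ g, RightExtreme b.coeff.support g) → b * a = 1 := by
    rintro ⟨g, hg⟩
    have h : (b * a - 1) * b = 0 := by
      rw [sub_mul, mul_assoc, hab, one_mul, mul_one, sub_self]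
    exact sub_eq_zero.mp (right_regular b _ g hg h)
  refine ⟨h1, h2, ?_⟩
  rintro φ hφ (⟨g, hg, hmin⟩ | ⟨g, hg, hmin⟩)
  · exact h1 ⟨g, (extreme_of_character _ g hg φ hφ hmin).1⟩
  · exact h2 ⟨g, (extreme_of_character _ g hg φ hφ hmin).2⟩

end Vale.Agent.Results.P194.ExtremeSupport
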